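import Vale.Agent.P161.H391.Super

open MeasureTheory Vale.Agent.P161

namespace Vale.Agent.Results.P161.AllRealBeta

/-- the statement for all real `β` -/
theorem allReal {V : Type*} (G : SimpleGraph V) [G.LocallyFinite] (hG : G.IsTree) (d : ℕ)
    (hd : 3 ≤ d) (hreg : G.IsRegularOfDegree d) (β : ℝ) :
    (∃! μ : Measure (V → ℤˣ), IsFreeIsing G (Real.tanh β) μ) ∧
      ∀ μ : Measure (V → ℤˣ), IsFreeIsing G (Real.tanh β) μ →
        (IsFactorOfIID G μ ↔ |Real.tanh β| ≤ 1 / Real.sqrt ((d : ℝ) - 1)) := by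
  have hd1 : (0 : ℝ) < (d : ℝ) - 1 := by
    have : (3 : ℝ) ≤ d := by exact_mod_cast hd
    linarith
  have h1 : |Real.tanh β| < 1 := Real.abs_tanh_lt_one β
  have hs : 0 < Real.sqrt ((d : ℝ) - 1) := Real.sqrt_pos.2 hd1
  have hsq : Real.sqrt ((d : ℝ) - 1) ^ 2 = (d : ℝ) - 1 := Real.sq_sqrt hd1.le
  have h0 : 0 ≤ |Real.tanh β| := abs_nonneg _
  refine ⟨?_, fun μ hμ => ?_⟩
  · obtain ⟨μ, hμ⟩ := exists_isFreeIsing' hG (abs_lt.1 h1).1.le (abs_lt.1 h1).2.le
    exact ⟨μ, hμ, fun ν hν => H391.isFreeIsing_unique hG hν hμ⟩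
  -- the two signs of the parameter
  have hcase : IsFreeIsing G |Real.tanh β| μ ∨ IsFreeIsing G (-|Real.tanh β|) μ := by
    rcases abs_cases (Real.tanh β) with ⟨h, _⟩ | ⟨h, _⟩
    · left; rw [h]; exact hμ
    · right; rw [h, neg_neg]; exact hμ
  set θ := |Real.tanh β| with hθ
  rcases lt_trichotomy θ (1 / Real.sqrt ((d : ℝ) - 1)) with hlt | heq | hgt
  · have hsub : ((d : ℝ) - 1) * θ ^ 2 < 1 := by
      have h2 : θ * Real.sqrt ((d : ℝ) - 1) < 1 := by
        rwa [lt_div_iff₀ hs] at hlt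
      have h3 : 0 ≤ θ * Real.sqrt ((d : ℝ) - 1) := mul_nonneg h0 hs.le
      have h4 : (θ * Real.sqrt ((d : ℝ) - 1)) ^ 2 < 1 := by nlinarith
      rw [mul_pow, hsq] at h4
      linarith
    refine ⟨fun _ => hlt.le, fun _ => ?_⟩
    rcases hcase with h | h
    · exact factor_of_iid_of_subcritical hG (by omega) hreg h0 hsub h1 h
    · exact H391.anti_subcritical hG (by omega) hreg h0 hsub h1 h
  · have hpos : 0 < θ := by
      rw [heq]
      positivity
    have hcrit : ((d : ℝ) - 1) * θ ^ 2 = 1 := by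
      rw [heq, div_pow, one_pow, hsq]
      field_simp
    refine ⟨fun _ => heq.le, fun _ => ?_⟩
    rcases hcase with h | h
    · exact factor_of_iid_of_critical hG hd hreg hpos hcrit h
    · exact H391.anti_critical hG hd hreg hpos hcrit h
  · have hsup : 1 < ((d : ℝ) - 1) * θ ^ 2 := by
      have h2 : 1 < θ * Real.sqrt ((d : ℝ) - 1) := (div_lt_iff₀ hs).1 hgt
      have h4 : 1 < (θ * Real.sqrt ((d : ℝ) - 1)) ^ 2 := by nlinarith
      rw [mul_pow, hsq] at h4
      linarith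
    refine ⟨fun hf => absurd hf ?_, fun h => absurd h (not_le.2 hgt)⟩
    rcases hcase with h | h
    · exact not_factor_of_supercritical hG (by omega) hreg h0 h1 hsup h
    · exact H391.not_factor_anti hG (by omega) hreg h0 h1 hsup h

/-- Let `d ≥ 3` and let `G` be a `d`-regular tree. (1) (Q1) For every `β ≥ 0` the free zero-field
Ising measure exists, and it is a factor of IID if and only if `tanh β ≤ (d-1)^(-1/2)`. (2) For
EVERY REAL inverse temperature `β` (ferromagnetic or antiferromagnetic) there is exactly one free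
zero-field Ising measure, and it is a factor of IID if and only if
`|tanh β| ≤ (d-1)^(-1/2)`. -/
theorem result {V : Type*} (G : SimpleGraph V) [G.LocallyFinite] (hG : G.IsTree) (d : ℕ)
    (hd : 3 ≤ d) (hreg : G.IsRegularOfDegree d) :
    (∀ β : ℝ, 0 ≤ β → (∃ μ : Measure (V → ℤˣ), IsFreeIsing G (Real.tanh β) μ) ∧
      ∀ μ : Measure (V → ℤˣ), IsFreeIsing G (Real.tanh β) μ →
        (IsFactorOfIID G μ ↔ Real.tanh β ≤ 1 / Real.sqrt ((d : ℝ) - 1))) ∧
    (∀ β : ℝ, (∃! μ : Measure (V → ℤˣ), IsFreeIsing G (Real.tanh β) μ) ∧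
      ∀ μ : Measure (V → ℤˣ), IsFreeIsing G (Real.tanh β) μ →
        (IsFactorOfIID G μ ↔ |Real.tanh β| ≤ 1 / Real.sqrt ((d : ℝ) - 1))) := by
  refine ⟨fun β hβ => ?_, fun β => allReal G hG d hd hreg β⟩
  have h0 : 0 ≤ Real.tanh β := by
    rw [Real.tanh_eq_sinh_div_cosh]
    exact div_nonneg (Real.sinh_nonneg_iff.2 hβ) (Real.cosh_pos β).le
  have h := allReal G hG d hd hreg β
  rw [abs_of_nonneg h0] at h
  exact ⟨h.1.exists, h.2⟩

end Vale.Agent.Results.P161.AllRealBeta
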