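import Vale.Agent.P161.H431.Final

open MeasureTheory Vale.Agent.P161

namespace Vale.Agent.Results.P161.UnimodularGroups

/-- Let `d ≥ 3` and let `G` be a `d`-regular tree.
(1) (Q1) For every `β ≥ 0` the free zero-field Ising measure exists, and it is a factor of IID if
and only if `tanh β ≤ (d-1)^(-1/2)`.
(2) For EVERY REAL `β` there is exactly one free zero-field Ising measure `μ_β`; it is a factor of
IID if and only if `|tanh β| ≤ (d-1)^(-1/2)`, and for EVERY unimodular group `Γ` of automorphisms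
with finitely many orbits, `μ_β` is a `Γ`-factor of IID if and only if `|tanh β| ≤ (d-1)^(-1/2)`.
(3) The whole automorphism group is such a group, and every group with finite vertex stabilisers is
unimodular.
(4) If `Γ` fixes an end of the tree, then `μ_β` is a `Γ`-factor of IID for EVERY real `β`; there is
such a group acting transitively on the vertices, it is not unimodular. -/
theorem result {V : Type*} (G : SimpleGraph V) [G.LocallyFinite] (hG : G.IsTree) (d : ℕ)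
    (hd : 3 ≤ d) (hreg : G.IsRegularOfDegree d) :
    (∀ β : ℝ, 0 ≤ β → (∃ μ : Measure (V → ℤˣ), IsFreeIsing G (Real.tanh β) μ) ∧
      ∀ μ : Measure (V → ℤˣ), IsFreeIsing G (Real.tanh β) μ →
        (IsFactorOfIID G μ ↔ Real.tanh β ≤ 1 / Real.sqrt ((d : ℝ) - 1))) ∧
    (∀ β : ℝ, (∃! μ : Measure (V → ℤˣ), IsFreeIsing G (Real.tanh β) μ) ∧
      ∀ μ : Measure (V → ℤˣ), IsFreeIsing G (Real.tanh β) μ →
        (IsFactorOfIID G μ ↔ |Real.tanh β| ≤ 1 / Real.sqrt ((d : ℝ) - 1)) ∧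
        ∀ Γ : Subgroup (G ≃g G), IsCofinite Γ → IsUnimodular Γ →
          (IsGroupFactor G Γ μ ↔ |Real.tanh β| ≤ 1 / Real.sqrt ((d : ℝ) - 1))) ∧
    (IsCofinite (⊤ : Subgroup (G ≃g G)) ∧ IsUnimodular (⊤ : Subgroup (G ≃g G)) ∧
      ∀ Γ : Subgroup (G ≃g G), (∀ v, {g : G ≃g G | g ∈ Γ ∧ g v = v}.Finite) → IsUnimodular Γ) ∧
    (∀ β : ℝ, ∀ μ : Measure (V → ℤˣ), IsFreeIsing G (Real.tanh β) μ →
      ∀ Γ : Subgroup (G ≃g G), FixesEnd Γ → IsGroupFactor G Γ μ) ∧
    (∃ Γ : Subgroup (G ≃g G), (∀ u v, ∃ g ∈ Γ, g u = v) ∧ FixesEnd Γ ∧ ¬ IsUnimodular Γ) := by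
  refine ⟨fun β hβ => ?_, fun β => ⟨(H431.allReal G hG d hd hreg β).1, fun μ hμ =>
    ⟨(H431.allReal G hG d hd hreg β).2 μ hμ, fun Γ hc hu =>
      H431.allGroups G hG d hd hreg Γ hc hu β μ hμ⟩⟩, ⟨H431.isCofinite_top hG hreg,
    H431.isUnimodular_top hG hreg, fun Γ h => H431.isUnimodular_of_finite h⟩,
    fun β μ hμ Γ hΓ => H431.endFactor hG hΓ (Real.abs_tanh_lt_one β) hμ,
    H431.exists_end_group hG hd hreg⟩
  have h0 : 0 ≤ Real.tanh β := by
    rw [Real.tanh_eq_sinh_div_cosh]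
    exact div_nonneg (Real.sinh_nonneg_iff.2 hβ) (Real.cosh_pos β).le
  have h := H431.allReal G hG d hd hreg β
  rw [abs_of_nonneg h0] at h
  exact ⟨h.1.exists, h.2⟩

end Vale.Agent.Results.P161.UnimodularGroups
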